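import Vale.Agent.P231.Co.Low
import Vale.Agent.P231.S2T.Deg
import Vale.Agent.P231.H584.Formal

/-!
# P231 (D), block D1, abstract part: low degrees of the base of a sphere bundle, and the
splitting of a trivial line
-/

set_option linter.unusedSectionVars false
set_option linter.unusedVariables false

open MeasureTheory Set Module Filter Topology Matrix
open scoped ContDiff

namespace Vale.Agent.P231Z.D.CohZ

open Vale.Agent.P231 Vale.Agent.P231.Fm Vale.Agent.P231.W Vale.Agent.P231.H584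
open Vale.Agent.P231.Fm (Sm Dif Form Lam)
open Vale.Agent.P231.Co Vale.Agent.P231.ChW Vale.Agent.P231.X3 Vale.Agent.P231.S2T

section Gysin

variable {B S Fr : Type*} {DB : Dif B} {DS : Dif S} {DF : Dif Fr}
variable {F : Type} [NormedAddCommGroup F] [InnerProductSpace ℝ F] [FiniteDimensional ℝ F]
  [MeasurableSpace F] [BorelSpace F] {m : ℕ} {o : OrthonormalBasis (Fin m) ℝ F}
  {π : S → B} {q : Fr → B} {ev : Fr × F → S} {h : Co.Bun DB DS DF F π q ev}
  {ψ : Form DS} {e : Form DB}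

/-- a homogeneous form whose pull-back is exact is a multiple of `e` up to an exact form -/
theorem step (hψ : h.Ang o ψ e) (hm : 2 ≤ m) {j : ℕ} {w : Form DB}
    (hwj : Form.IsDeg (j + 1) w) {κ₀ : Form DS} (hκ₀ : Form.pull π h.hπ w = κ₀.d) :
    ∃ v η : Form DB, v.d = 0 ∧ (∀ i, j + 1 = i + m → Form.IsDeg i v) ∧ (j + 1 < m → v = 0) ∧
      w = v * e + η.d := by
  set κ : Form DS := Form.part j κ₀ with hκdef
  have hκj : Form.IsDeg j κ := Form.isDeg_part j κ₀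
  have hκ : Form.pull π h.hπ w = κ.d := by
    rw [hκdef, ← Form.part_succ_d, ← hκ₀]
    exact (hwj.pull π h.hπ).part_eq.symm
  have hg := h.gysin1 o hψ hκ
  set s : ℝ := ((-1 : ℝ) ^ (j + 1)) ^ (m + 1) with hs
  have hss : s * s = 1 := by
    rw [hs, ← pow_mul, ← pow_add, ← two_mul, pow_mul, neg_one_sq, one_pow]
  have hw1 : w = s • (Form.sg^[m + 1] w) := by
    rw [sgi_isDeg hwj, ← hs, smul_smul, hss, one_smul]
  have hκs : Form.IsDeg j κ.sg := by
    rw [hκj.sg]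
    exact hκj.smul _
  have hvd : (h.SI o κ.sg).d = 0 := by
    have h1 : h.SI o κ.sg.d = 0 := by
      rw [Form.d_sg, ← hκ, ← Form.pull_sg]
      have h2 : -Form.pull π h.hπ w.sg = Form.pull π h.hπ (-w.sg) := (Co.pull_neg _ _).symm
      rw [h2, h.SI_pull_zero o hm]
    have h3 := h.SI_d o κ.sg
    rw [h1] at h3
    exact (smul_eq_zero.1 h3.symm).resolve_left (pow_ne_zero _ (by norm_num))
  refine ⟨s • h.SI o κ.sg, (s * (-1 : ℝ) ^ (m + 1)) • h.SI o (κ * ψ), ?_, fun i hi => ?_,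
    fun hi => ?_, ?_⟩
  · rw [Form.d_smul, hvd, smul_zero]
  · exact (h.isDeg_SI o hκs hi).smul s
  · rw [h.SI_eq_zero o hκs hi, smul_zero]
  · conv_lhs => rw [hw1, hg]
    rw [smul_add, smul_smul, Form.d_smul, smul_mul_assoc]

variable {X₀ : Form DB} {n₀ : ℕ}

/-- the hypothesis on the total space -/
def GenS (h : Co.Bun DB DS DF F π q ev) (X₀ : Form DB) (m n₀ : ℕ) : Prop :=
  ∀ (j : ℕ) (w : Form DS), j < n₀ → w.d = 0 → Form.IsDeg j w →
    ∃ (c : ℝ) (Γ : Form DS), w = c • Form.pull π h.hπ X₀ ^ (j / m) + Γ.d ∧ (¬ m ∣ j → c = 0)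

theorem pull_closed {w : Form DB} (hw : w.d = 0) : (Form.pull π h.hπ w).d = 0 := by
  rw [← Form.pull_d, hw, Co.pull_zero]

theorem low0 (hψ : h.Ang o ψ e) (hm : 2 ≤ m) (hG : GenS h X₀ m n₀) {j : ℕ} (h0 : 0 < j)
    (hj : j < m) (hn : j < n₀) {w : Form DB} (hw : w.d = 0) (hwj : Form.IsDeg j w) :
    ∃ η : Form DB, w = η.d := by
  obtain ⟨i, rfl⟩ : ∃ i, j = i + 1 := ⟨j - 1, by omega⟩
  obtain ⟨c, Γ, h1, h2⟩ := hG (i + 1) _ hn (pull_closed (h := h) hw) (hwj.pull π h.hπ)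
  rw [h2 (Nat.not_dvd_of_pos_of_lt h0 hj), zero_smul, zero_add] at h1
  obtain ⟨v, η, -, -, h3, h4⟩ := step hψ hm hwj h1
  exact ⟨η, by rw [h4, h3 hj, zero_mul, zero_add]⟩

theorem const0 (o : OrthonormalBasis (Fin m) ℝ F) (hm : 2 ≤ m) (hG : GenS h X₀ m n₀)
    (hn : 0 < n₀) {w : Form DB} (hw : w.d = 0) (hwj : Form.IsDeg 0 w) :
    ∃ c : ℝ, w = c • (1 : Form DB) := by
  refine h.const_base o (by omega) (fun σ hσ hσ0 => ?_) hw hwj
  obtain ⟨c, Γ, h1, -⟩ := hG 0 σ hn hσ hσ0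
  refine ⟨c, ?_⟩
  rw [Nat.zero_div, pow_zero] at h1
  have h2 : Form.part 0 σ = σ := hσ0
  rw [← h2]
  conv_lhs => rw [h1]
  rw [Form.part_add, Form.part_zero_d, add_zero, Form.part_smul, Form.part_one]
  simp

theorem low1 (hψ : h.Ang o ψ e) (hm : 2 ≤ m) (hG : GenS h X₀ m n₀) (hX : Form.IsDeg m X₀)
    (hn : m < n₀) {w : Form DB} (hw : w.d = 0) (hwj : Form.IsDeg m w) :
    ∃ (c c' : ℝ) (η : Form DB), w = c • X₀ + c' • e + η.d := by
  obtain ⟨c, Γ, h1, -⟩ := hG m _ hn (pull_closed (h := h) hw) (hwj.pull π h.hπ)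
  rw [Nat.div_self (by omega), pow_one] at h1
  have h2 : Form.pull π h.hπ (w - c • X₀) = Γ.d := by
    rw [Co.pull_sub, Co.pull_smul, h1]
    abel
  have h3 : Form.IsDeg (m - 1 + 1) (w - c • X₀) := degc (hwj.sub (hX.smul c)) (by omega)
  obtain ⟨v, η, h4, h5, -, h6⟩ := step hψ hm h3 h2
  obtain ⟨c', hc'⟩ := const0 o hm hG (by omega) h4 (h5 0 (by omega))
  refine ⟨c, c', η, ?_⟩
  rw [hc', smul_mul_assoc, one_mul] at h6
  rw [add_assoc, ← h6]
  abel

theorem low2 (hψ : h.Ang o ψ e) (hm : 2 ≤ m) (hG : GenS h X₀ m n₀) {j : ℕ} (h0 : m < j)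
    (hj : j < 2 * m) (hn : j < n₀) {w : Form DB} (hw : w.d = 0) (hwj : Form.IsDeg j w) :
    ∃ η : Form DB, w = η.d := by
  obtain ⟨i, rfl⟩ : ∃ i, j = i + 1 := ⟨j - 1, by omega⟩
  obtain ⟨c, Γ, h1, h2⟩ := hG (i + 1) _ hn (pull_closed (h := h) hw) (hwj.pull π h.hπ)
  have hnd : ¬ m ∣ i + 1 := fun hd => by
    have h3 : m ∣ i + 1 - m := Nat.dvd_sub hd (dvd_refl m)
    exact Nat.not_dvd_of_pos_of_lt (by omega) (by omega) h3
  rw [h2 hnd, zero_smul, zero_add] at h1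
  obtain ⟨v, η, h3, h4, -, h5⟩ := step hψ hm hwj h1
  obtain ⟨η', h6⟩ := low0 hψ hm hG (j := i + 1 - m) (by omega) (by omega) (by omega) h3
    (h4 _ (by omega))
  refine ⟨η' * e + η, ?_⟩
  rw [Form.d_add, d_mul_closed _ (hψ.ed h o (by omega)), ← h6, h5]

theorem low3 (hψ : h.Ang o ψ e) (hm : 2 ≤ m) (hG : GenS h X₀ m n₀) (hX : Form.IsDeg m X₀)
    (hn : m < n₀) {w : Form DB} (hwj : Form.IsDeg (2 * m) w) {κ : Form DS}
    (hκ : Form.pull π h.hπ w = κ.d) :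
    ∃ (c c' : ℝ) (η : Form DB), w = (c • X₀ + c' • e) * e + η.d := by
  have h3 : Form.IsDeg (2 * m - 1 + 1) w := degc hwj (by omega)
  obtain ⟨v, η, h4, h5, -, h6⟩ := step hψ hm h3 hκ
  obtain ⟨c, c', η', h7⟩ := low1 hψ hm hG hX hn h4 (h5 m (by omega))
  refine ⟨c, c', η' * e + η, ?_⟩
  rw [Form.d_add, d_mul_closed _ (hψ.ed h o (by omega)), h6, h7, add_mul (c • X₀ + c' • e),
    add_assoc]

/-- a form whose product with the angular form is exact -/
theorem exact_of_mul (hψ : h.Ang o ψ e) {w : Form DB} {μ : Form DS}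
    (hμ : ψ * Form.pull π h.hπ w = μ.d) : ∃ η : Form DB, w = η.d := by
  have h1 := h.SI_d o μ
  rw [← hμ, h.SI_mul_π o, hψ.one, one_mul] at h1
  exact ⟨(-1 : ℝ) ^ (m + 1) • h.SI o μ, by rw [Form.d_smul, ← h1]⟩

end Gysin

section Newton

variable {X : Type*} {D : Dif X} {ι : Type*} {n : Type*} [Fintype n] [DecidableEq n]

/-- the degrees of the solution of the recursion -/
theorem newton_deg {s c : ℕ → Form D} (hc : NewtonRec ℝ s c)
    (hs : ∀ k, Form.IsDeg (2 * k) (s k)) (j : ℕ) : Form.IsDeg (2 * j) (c j) := by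
  induction j using Nat.strong_induction_on with
  | _ j ih =>
    cases j with
    | zero =>
      rw [hc.1]
      exact Form.IsDeg.one
    | succ j =>
      have hj : ((j : ℝ) + 1) ≠ 0 := by positivity
      have h1 : c (j + 1) = ((j : ℝ) + 1)⁻¹ •
          ∑ i ∈ Finset.range (j + 1), (-1 : ℝ) ^ i • (s (i + 1) * c (j - i)) := by
        rw [← hc.2 j, smul_smul, inv_mul_cancel₀ hj, one_smul]
      rw [h1]
      refine Form.IsDeg.smul _ (Form.IsDeg.sum fun i hi => Form.IsDeg.smul _ ?_)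
      have hi' : i < j + 1 := Finset.mem_range.1 hi
      exact degc ((hs (i + 1)).mul (ih (j - i) (by omega))) (by omega)

/-- the classes of a real symmetric projector vanish above the trace -/
theorem newton_real {Ψ : Fam D ι} {A : X → Matrix n n ℝ} (hA : SmM D A)
    (hAA : ∀ x, A x * A x = A x) (hAt : ∀ x, (A x)ᵀ = A x) (b : S2T.IB Ψ (cR A hA)) {r : ℕ}
    (hr : ∀ x, trace (A x) = r) {C : ℕ → Ψ.H}
    (hC : NewtonRec ℝ (fun k => Ψ.qm (b.cl k)) C) {j : ℕ} (hj : r < j) : C j = 0 := by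
  refine b.newton ?_ (r := r) (p := fun x => (A x).map (fun r : ℝ => (r : ℂ))) ?_ hC hj
  · rw [cj_cR, cR_transpose]
    exact cR_congr _ _ hAt
  · have hEE : ∀ x, (A x).map (fun r : ℝ => (r : ℂ)) * (A x).map (fun r : ℝ => (r : ℂ)) =
        (A x).map (fun r : ℝ => (r : ℂ)) := fun x => by
      rw [← map_ofReal_mul, hAA]
    refine rankLE_cM _ hEE fun x => ?_
    refine (rank_eq_of_trace (hEE x) (r := r) ?_).le
    have h3 : trace ((A x).map (fun r : ℝ => (r : ℂ))) = ((trace (A x) : ℝ) : ℂ) := by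
      rw [trace, trace, Complex.ofReal_sum]
      rfl
    rw [h3, hr]
    push_cast
    rfl

theorem newton_line {H : Type*} [CommRing H] [Algebra ℝ H] {s C : ℕ → H}
    (hC : NewtonRec ℝ s C) (h1 : s 1 = 0) (h2 : ∀ j, 1 < j → C j = 0) (k : ℕ) :
    s (k + 1) = 0 := by
  have h3 : C 1 = 0 := by
    have h4 := hC.2 0
    rw [Finset.sum_range_one, zero_add 1, h1, zero_mul, smul_zero, Nat.cast_zero,
      zero_add, one_smul] at h4
    exact h4
  have h4 : ∀ j, C (j + 1) = 0 := by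
    intro j
    rcases Nat.eq_zero_or_pos j with rfl | hj
    · exact h3
    · exact h2 _ (by omega)
  have h5 := hC.2 k
  rw [h4, smul_zero, Finset.sum_range_succ, Finset.sum_eq_zero, zero_add, Nat.sub_self, hC.1,
    mul_one] at h5
  · have h6 : ((-1 : ℝ) ^ k) * (-1 : ℝ) ^ k = 1 := by
      rw [← pow_add, ← two_mul, pow_mul, neg_one_sq, one_pow]
    rw [← one_smul ℝ (s (k + 1)), ← h6, mul_smul, ← h5, smul_zero]
  · intro i hi
    have hi' : i < k := Finset.mem_range.1 hi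
    obtain ⟨t, ht⟩ : ∃ t, k - i = t + 1 := ⟨k - i - 1, by omega⟩
    rw [ht, h4, mul_zero, smul_zero]

/-- the power sums of a real line vanish -/
theorem line_zero {Ψ : Fam D ι} {A : X → Matrix n n ℝ} (hA : SmM D A)
    (hAA : ∀ x, A x * A x = A x) (hAt : ∀ x, (A x)ᵀ = A x) (b : S2T.IB Ψ (cR A hA))
    (hr : ∀ x, trace (A x) = 1) (k : ℕ) : Ψ.qm (b.cl (k + 1)) = 0 := by
  have hC := newtE_spec (K := ℝ) (fun k => Ψ.qm (b.cl k))
  have h1 : Ψ.qm (b.cl 1) = 0 := by rw [cl_odd_cR b odd_one, map_zero]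
  exact newton_line (s := fun k => Ψ.qm (b.cl k)) hC h1 (fun j hj =>
    newton_real hA hAA hAt b (r := 1) (fun x => by rw [hr, Nat.cast_one]) hC hj) k

/-- a real projector which contains a line: the top class vanishes -/
theorem top_zero {Ψ : Fam D ι} {P L : X → Matrix n n ℝ} (hP : SmM D P) (hL : SmM D L)
    (hPP : ∀ x, P x * P x = P x) (hPt : ∀ x, (P x)ᵀ = P x)
    (hLL : ∀ x, L x * L x = L x) (hLt : ∀ x, (L x)ᵀ = L x) (hPL : ∀ x, P x * L x = L x)
    (iP : ∀ i x t, P (Ψ.Φ i (x, t)) = P x) (iL : ∀ i x t, L (Ψ.Φ i (x, t)) = L x)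
    {r : ℕ} (hr : ∀ x, trace (P x) = (r : ℝ) + 1) (hl : ∀ x, trace (L x) = 1)
    (b : S2T.IB Ψ (cR P hP)) {C : ℕ → Ψ.H} (hC : NewtonRec ℝ (fun k => Ψ.qm (b.cl k)) C)
    {j : ℕ} (hj : r < j) : C j = 0 := by
  have hLP : ∀ x, L x * P x = L x := fun x => by
    have h1 := congrArg Matrix.transpose (hPL x)
    rwa [Matrix.transpose_mul, hLt, hPt] at h1
  have hE : SmM D (fun x => P x - L x) := hP.sub hL
  have hEE : ∀ x, (P x - L x) * (P x - L x) = P x - L x := fun x => by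
    rw [Matrix.mul_sub, Matrix.sub_mul, Matrix.sub_mul, hPP, hLP, hPL, hLL]
    abel
  have bE : S2T.IB Ψ (cR _ hE) := ib_cR hE hEE fun i x t => by rw [iP, iL]
  have bL : S2T.IB Ψ (cR _ hL) := ib_cR hL hLL iL
  have h1 : cR _ hE * cR _ hL = 0 := by
    rw [cR_mul hE hL (SmM.const D 0) fun x => by rw [Matrix.sub_mul, hPL, hLL, sub_self]]
    exact cR_zero _ fun _ => rfl
  have h2 : cR _ hL * cR _ hE = 0 := by
    rw [cR_mul hL hE (SmM.const D 0) fun x => by rw [Matrix.mul_sub, hLP, hLL, sub_self]]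
    exact cR_zero _ fun _ => rfl
  have h3 : ∀ k, Ψ.qm (b.cl (k + 1)) = Ψ.qm (bE.cl (k + 1)) := fun k => by
    have h4 : b.cl (k + 1) = (bE.add bL h1 h2).cl (k + 1) :=
      S2T.IB.cl_congr _ _ (cR_add hE hL hP fun x => sub_add_cancel _ _).symm _
    rw [h4, S2T.IB.cl_add bE bL h1 h2, line_zero hL hLL hLt bL hl, add_zero]
  refine newton_real hE hEE (fun x => by rw [transpose_sub, hPt, hLt]) bE (r := r)
    (fun x => by rw [trace_sub, hr, hl, add_sub_cancel_right]) (hC.congr h3) hj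

end Newton

section Span

/-- the empty family of flows -/
def emp {X : Type*} (D : Dif X) : Fam D Empty := ⟨fun i => i.elim, fun i => i.elim⟩

/-- closed even forms which are pulled back along an invariant map -/
noncomputable def phi {X Y : Type*} {D : Dif X} {D' : Dif Y} {Φ : X × ℝ → X}
    (hΦ : (D.prod (Dif.lin ℝ)).Map D Φ) {g : X → Y} (hg : D.Map D' g)
    (hi : ∀ x t, g (Φ (x, t)) = g x) : (emp D').Bas →ₐ[ℝ] H584.Bas Φ hΦ :=
  ((Form.pullA g hg).comp (emp D').Bas.val).codRestrict (H584.Bas Φ hΦ) fun w =>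
    ⟨by
      change (Form.pull g hg w.1).sg = Form.pull g hg w.1
      rw [← Form.pull_sg, w.2.1], by
      change (Form.pull g hg w.1).d = 0
      rw [← Form.pull_d, w.2.2.1]
      exact map_zero (Form.pullA g hg), H584.basic_pull hg hi w.1⟩

theorem coe_phi {X Y : Type*} {D : Dif X} {D' : Dif Y} {Φ : X × ℝ → X}
    (hΦ : (D.prod (Dif.lin ℝ)).Map D Φ) {g : X → Y} (hg : D.Map D' g)
    (hi : ∀ x t, g (Φ (x, t)) = g x) (w : (emp D').Bas) :
    (phi hΦ hg hi w : Form D) = Form.pull g hg w.1 := rfl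

theorem qm_phi {X Y : Type*} {D : Dif X} {D' : Dif Y} {Φ : X × ℝ → X}
    (hΦ : (D.prod (Dif.lin ℝ)).Map D Φ) {g : X → Y} (hg : D.Map D' g)
    (hi : ∀ x t, g (Φ (x, t)) = g x) (w : (emp D').Bas) (η : Form D') (h : w.1 = η.d) :
    ((qm Φ hΦ).comp (phi hΦ hg hi)) w = 0 := by
  rw [AlgHom.comp_apply, ← map_zero (qm Φ hΦ)]
  refine qm_eq_of (η := Form.pull g hg η) (H584.basic_pull hg hi η) ?_
  rw [coe_phi, h, Form.pull_d]
  exact sub_zero _

variable {B S Fr : Type*} {DB : Dif B} {DS : Dif S} {DF : Dif Fr}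
variable {F : Type} [NormedAddCommGroup F] [InnerProductSpace ℝ F] [FiniteDimensional ℝ F]
  [MeasurableSpace F] [BorelSpace F] {m : ℕ} {o : OrthonormalBasis (Fin m) ℝ F}
  {π : S → B} {q : Fr → B} {ev : Fr × F → S} {h : Co.Bun DB DS DF F π q ev}
  {ψ : Form DS} {e : Form DB} {n : Type*} [Fintype n] [DecidableEq n]
  {H : Type*} [CommRing H] [Algebra ℝ H]

theorem eq_of_d (φ : (emp DB).Bas →ₐ[ℝ] H)
    (hφ : ∀ (w : (emp DB).Bas) (η : Form DB), w.1 = η.d → φ w = 0) {a b : (emp DB).Bas}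
    {η : Form DB} (hab : a.1 = b.1 + η.d) : φ a = φ b := by
  rw [← sub_eq_zero, ← map_sub]
  refine hφ _ η ?_
  change a.1 - b.1 = η.d
  rw [hab, add_sub_cancel_left]

/-- **the classes of a bundle of rank `2 r` with a nowhere vanishing section over the sphere
bundle** -/
theorem span_abs (hψ : h.Ang o ψ e) {r n₀ : ℕ} (hm : m = 2 * r) (hr : 1 ≤ r)
    {X0 X1 : (emp DB).Bas} (hG : GenS h X0.1 m n₀) (hn : 2 * m ≤ n₀ + 1)
    (hX : Form.IsDeg m X0.1) {κ : ℝ} (he : e = κ • (X0.1 - X1.1))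
    {A : B → Matrix n n ℝ} (hA : SmM DB A) (hAA : ∀ x, A x * A x = A x)
    (hAt : ∀ x, (A (π x))ᵀ = A (π x)) (htr : ∀ x, trace (A (π x)) = (m : ℝ))
    {L : S → Matrix n n ℝ} (hL : SmM DS L) (hLL : ∀ x, L x * L x = L x)
    (hLt : ∀ x, (L x)ᵀ = L x) (hAL : ∀ x, A (π x) * L x = L x) (hl : ∀ x, trace (L x) = 1)
    (b : S2T.IB (emp DB) (cR A hA)) (φ : (emp DB).Bas →ₐ[ℝ] H)
    (hφ : ∀ (w : (emp DB).Bas) (η : Form DB), w.1 = η.d → φ w = 0) {C : ℕ → H}
    (hC : NewtonRec ℝ (fun j => φ (b.cl j)) C) :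
    (∀ j, 1 ≤ j → j < 2 * r → j ≠ r → C j = 0) ∧
    (∃ β₀ β₁ : ℝ, C r = β₀ • φ X0 + β₁ • φ X1) ∧
    ∃ a₀ a₁ a₂ : ℝ, C (2 * r) = a₀ • φ X0 ^ 2 + a₁ • (φ X0 * φ X1) + a₂ • φ X1 ^ 2 := by
  have hc := newtE_spec (K := ℝ) (fun j => b.cl j)
  generalize newtE ℝ (fun j => b.cl j) = c at hc
  have hCc : ∀ j, C j = φ (c j) := fun j => hC.unique (hc.map φ) j
  have hdeg : ∀ j, Form.IsDeg (2 * j) (c j).1 := fun j =>
    newton_deg (hc.map (emp DB).Bas.val) (fun k => isDeg_sF_cR hA k) j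
  have hm2 : 2 ≤ m := by omega
  refine ⟨fun j h1 h2 h3 => ?_, ?_, ?_⟩
  · rw [hCc]
    rcases lt_or_gt_of_ne h3 with h4 | h4
    · obtain ⟨η, hη⟩ := low0 hψ hm2 hG (j := 2 * j) (by omega) (by omega) (by omega)
        (c j).2.2.1 (hdeg j)
      exact hφ _ η hη
    · obtain ⟨η, hη⟩ := low2 hψ hm2 hG (j := 2 * j) (by omega) (by omega) (by omega)
        (c j).2.2.1 (hdeg j)
      exact hφ _ η hη
  · obtain ⟨a, a', η, hη⟩ := low1 hψ hm2 hG hX (by omega) (c r).2.2.1 (degc (hdeg r) hm.symm)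
    have h1 : φ (c r) = φ (a • X0 + a' • κ • (X0 - X1)) := by
      refine eq_of_d φ hφ (η := η) ?_
      rw [hη, he]
      rfl
    refine ⟨a + a' * κ, -(a' * κ), ?_⟩
    rw [hCc, h1, map_add, map_smul, map_smul, map_smul, map_sub]
    module
  · have hi : ∀ (i : Empty) (x : S) (t : ℝ),
        π ((emp DS).Φ i (x, t)) = (emp DB).Φ i (π x, t) := fun i => i.elim
    have hP : SmM DS (fun x => A (π x)) := hA.comp h.hπ
    have b' : S2T.IB (emp DS) (cR _ hP) := ib_cR hP (fun x => hAA _) fun i => i.elim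
    have h1 := (hc.map (Fam.pl h.hπ hi)).map (emp DS).qm
    have h2 : ∀ k, (emp DS).qm (Fam.pl h.hπ hi (b.cl (k + 1))) = (emp DS).qm (b'.cl (k + 1)) := by
      intro k
      have h3 : Fam.pl h.hπ hi (b.cl (k + 1)) = b'.cl (k + 1) := by
        rw [S2T.IB.pl_cl]
        exact S2T.IB.cl_congr _ _ (map_pullC_cR hA h.hπ) _
      rw [h3]
    have h3 := top_zero (r := m - 1) hP hL (fun x => hAA _) hAt hLL hLt hAL (fun i => i.elim)
      (fun i => i.elim) (fun x => by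
        rw [htr, Nat.cast_sub (by omega), Nat.cast_one, sub_add_cancel]) hl b' (h1.congr h2)
      (j := 2 * r) (by omega)
    obtain ⟨μ, -, hμ⟩ := (emp DS).exists_of_qm_eq_zero h3
    rw [Fam.coe_pl] at hμ
    obtain ⟨a, a', η, hη⟩ := low3 hψ hm2 hG hX (by omega) (degc (hdeg (2 * r)) (by omega)) hμ
    have h4 : φ (c (2 * r)) = φ ((a • X0 + a' • κ • (X0 - X1)) * κ • (X0 - X1)) := by
      refine eq_of_d φ hφ (η := η) ?_
      rw [hη, he]
      rfl
    refine ⟨(a + a' * κ) * κ, -((a + 2 * (a' * κ)) * κ), a' * κ * κ, ?_⟩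
    rw [hCc, h4, map_mul, map_add, map_smul, map_smul, map_smul, map_sub]
    simp only [Algebra.smul_def, map_mul, map_add, map_neg, map_ofNat]
    ring

/-- **the relation** -/
theorem hh_abs {b : Form DS} {κ : ℝ} (hψ : h.Ang o (κ • b) e) {X0 X1 : (emp DB).Bas} {k : ℕ}
    (hb : Pth k (Form.pull π h.hπ X0.1) (Form.pull π h.hπ X1.1) b) (φ : (emp DB).Bas →ₐ[ℝ] H)
    (hφ : ∀ (w : (emp DB).Bas) (η : Form DB), w.1 = η.d → φ w = 0) :
    hh k (φ X0) (φ X1) = 0 := by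
  obtain ⟨μ, hμ⟩ := hb.ex
  rw [← pull_hh] at hμ
  obtain ⟨η, hη⟩ := exact_of_mul hψ (w := hh k X0.1 X1.1) (μ := κ • μ)
    (by rw [smul_mul_assoc, hμ, Form.d_smul])
  have h1 : hh k (φ X0) (φ X1) = φ (hh k X0 X1) := by
    rw [hh, hh, map_sum]
    exact Finset.sum_congr rfl fun i _ => by rw [map_mul, map_pow, map_pow]
  rw [h1]
  refine hφ _ η ?_
  rw [← hη, hh, hh]
  refine (map_sum (emp DB).Bas.val _ _).trans ?_
  exact Finset.sum_congr rfl fun i _ => by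
    rw [map_mul, map_pow, map_pow]
    rfl

end Span

end Vale.Agent.P231Z.D.CohZ
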